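import Vale.Agent.P216E.Inst
import Vale.Agent.P216D.ModM
import Vale.Agent.P216D.Heat

/-!
# P216EI: the differential inequality of Perelman
-/

open scoped Manifold ContDiff Topology ENNReal
open Set Filter

set_option linter.unusedSimpArgs false

noncomputable section

namespace Vale.Agent.P216EI

open Vale.Agent.P216D

section

open Fr Fl

variable {A : Type*} [CommRing A] [Algebra ℝ A] {c : RF A} {l τ : A}

theorem per_alg (hl : c.Inv l) (hτ : ∀ a, c.D a τ = 0) (hτt : c.Dt τ = -1)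
    (hlt : c.Dt l = -c.Lap l - c.ip l l + 2 * c.S) {y : A}
    (hy : y = τ * (-2 * c.Lap l - c.ip l l + 2 * c.S) - l) :
    2 * (τ * (c.Dt y + c.Lap y + 2 * c.ip l y)) + 3 =
      ∑ a, ∑ b, (2 * τ * (c.Ric a b - c.D a (c.D b l)) - dl a b • 1) ^ 2 := by
  obtain ⟨w, hw⟩ : ∃ w, w = -2 * c.Lap l - c.ip l l + 2 * c.S := ⟨_, rfl⟩
  have h2 : c.Dt w + c.Lap w + 2 * c.ip l w = 2 * (c.rsq - 2 * c.rhs l + c.hsq l) := by
    rw [hw, neg_mul]
    simp only [der_nf, RF.Dt_Lap hl, RF.Dt_ip hl hl, c.Dt_S, hlt, Lap_add, Lap_sub, Lap_neg,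
      Lap_mul, ip_add_left, ip_add_right, ip_sub_left, ip_sub_right, ip_neg_left, ip_neg_right,
      ip_mul_left, ip_mul_right, hl.bochner_self, c.Lap_const (x := 2) fun a => der_ofNat _ 2,
      c.ip_const (x := 2) fun a => der_ofNat _ 2, c.ip_comm _ 2, c.ip_comm _ l]
    ring
  have h3 : ∑ a, ∑ b, (2 * τ * (c.Ric a b - c.D a (c.D b l)) - dl a b • 1) ^ 2 =
      4 * τ ^ 2 * (c.rsq - 2 * c.rhs l + c.hsq l) - 4 * τ * (2 * c.S - c.Lap l) + 3 := by
    simp only [rsq, rhs, hsq, Lap, ← tr_Ric, Fin.sum_univ_three, eps_nf, zs_nf]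
    ring
  rw [hy, ← hw, h3]
  simp only [der_nf, hτt, Lap_sub, Lap_mul, ip_sub_right, ip_mul_right, c.Lap_const hτ,
    c.ip_const hτ, c.ip_comm _ τ, hlt]
  linear_combination (2 * τ ^ 2) * h2 - 2 * τ * hw

end

open Vale.Agent.P216R hiding RF
open Vale.Agent.P216ST Vale.Agent.P216E Loc

variable {M : Type} [TopologicalSpace M] [ChartedSpace E3 M] {I J : Set ℝ} {U : Set M}
  {u v : ℝ → M → ℝ}

theorem smF_mono (hu : SmF E3 u I U) (h : J ⊆ I) : SmF E3 u J U :=
  fun a => (hu a).mono (prod_mono h Subset.rfl)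

theorem fper : FPER := by
  intro M _ _ _ _ _ g a b U hab hg l hl he c t ht x hx
  have hI : Iv (Ioo a b) := .of_isOpen isOpen_Ioo
  have h : P216R.RF g (Ioo a b) U := hg.mono_time Ioo_subset_Icc_self
  have hl' : SmF E3 l (Ioo a b) U := smF_mono hl Ioo_subset_Icc_self
  have hτ : SmF E3 (fun s (_ : M) => c - s) (Ioo a b) U := fun _ =>
    contDiffOn_const.sub contDiffOn_fst
  have hy : SmF E3 ((flo g a b U).y c l) (Ioo a b) U := fun z =>
    ((hτ z).mul (((contDiffOn_const.mul (smF_lap h.toFam hl' z)).sub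
      (smF_gam h.toFam hl' hl' z)).add (smF_Sc h.toFam z))).sub (hl' z)
  have k : ∀ {w : ℝ → M → ℝ} {s}, s ∈ Ioo a b → ∀ z, derivWithin (fun r => w r z) (Ioo a b) s =
      deriv (fun r => w r z) s := fun hs _ => derivWithin_of_isOpen isOpen_Ioo hs
  have h1 := per_alg (c := crf h hI x) (l := sm h.toFam hI x l hl') (τ := sm h.toFam hI x _ hτ)
    (y := sm h.toFam hI x _ hy) (inv_sm _ _ _ _)
    (fun i => Sm.ext fun p => (ev_D_sc _ p i).trans (by simp [rd, Function.comp_def]))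
    (by
      simp only [crf_toFl, Dt_sm]
      refine Sm.ext fun p => (k (w := fun s (_ : M) => c - s) (t_mem p) x).trans ?_
      simp)
    (by
      simp only [crf_toFl, fl_toFr, Dt_sm, Lap_sm, ip_sm, S_sm]
      exact Sm.ext fun p => (k (t_mem p) _).trans (he _ (t_mem p) _ (x_mem p).2))
    (by
      simp only [crf_toFl, fl_toFr, Dt_sm, Lap_sm, ip_sm, S_sm]
      exact Sm.ext fun p => rfl)
  have h2 := congrArg (ev (fp h.toFam hI ht hx (fr0_on (h.symm t ht x hx) (h.pos t ht x hx)))) h1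
  simp only [crf_toFl, fl_toFr, map_add, map_mul, map_ofNat, Dt_sm, fp_sm, fp_Lap, fp_ip, map_sum,
    map_pow, k ht] at h2
  have h3 := h2 ▸ Finset.sum_nonneg fun i _ => Finset.sum_nonneg fun j _ => sq_nonneg _
  simp only
  linarith

end Vale.Agent.P216EI
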