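import Vale.Agent.P216FB.Defs
import Vale.Agent.P216E.Inst
import Vale.Agent.P216BF.Real

/-!
# P216EI: growth of the integral of a solution of the heat equation
-/

open scoped Manifold ContDiff Topology ENNReal
open Set Filter MeasureTheory

noncomputable section

namespace Vale.Agent.P216EI

open Vale.Agent.P216R Vale.Agent.P216E Vale.Agent.P216FB

theorem mass (hF : FOK E3) : MASS := by
  intro M _ _ _ _ _ g U a c R₀ u hac hg hc hH hu h
  have F := hF M g a c U hac hg hc hH
  have := P216BF.le_exp_mul (φ := fun t => ∫ x in U, u t x ∂vol (g t))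
    (φ' := fun t => ∫ x in U, (deriv (fun s => u s x) t - Sc (g t) x * u t x) ∂vol (g t))
    (Λ := fun t => R₀ * t) (k := fun _ => R₀) hac.le (F.cint u hu.sm) (by fun_prop) fun t ht => by
      have ht' := Ioo_subset_Icc_self ht
      have T := F.ok t ht'
      have h1 : u t ∈ (tri (g t) U).S := F.slice u hu.sm t ht'
      have h0 : (fun _ => (1 : ℝ)) ∈ (tri (g t) U).S := T.comp _ h1 (fun _ => 1) fun _ _ =>
        contDiffAt_const
      have h2 : ∫ x in U, lap (g t) (u t) x ∂vol (g t) = 0 := by
        have h3 := T.green _ h0 _ h1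
        simp only [one_mul] at h3
        rw [h3, neg_eq_zero]
        refine integral_eq_zero_of_ae (T.ae.mono fun x hx => ?_)
        simpa using T.Γ_comp _ h1 (fun _ => 1) (fun _ _ => contDiffAt_const) _ h1 x hx
      have i1 := T.int _ (T.cont _ h1)
      have i2 := T.int _ (T.cont _ (T.LS _ h1))
      refine ⟨F.dint u hu.sm t ht, by simpa using (hasDerivAt_id t).const_mul R₀, ?_⟩
      rw [← integral_const_mul, ← zero_add (∫ x in U, R₀ * u t x ∂vol (g t)), ← h2,
        ← integral_add i2 (i1.const_mul _)]
      refine integral_mono_ae (T.int _ ((T.cont _ (F.dS u hu.sm t ht)).sub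
        ((T.cont _ T.RS).mul (T.cont _ h1)))) (i2.add (i1.const_mul _)) (T.ae.mono fun x hx => ?_)
      have h4 := ((hu.eqn t ht' x hx).hasDerivAt (Icc_mem_nhds ht.1 ht.2)).deriv
      have h5 := h t ht' x hx
      simp only [h4]
      nlinarith [mul_nonneg h5.1 (sub_nonneg.2 h5.2)]
  rwa [← mul_sub] at this

end Vale.Agent.P216EI
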