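import Vale.Agent.P216C.Plan
import Vale.Agent.P216BF.Curv
import Vale.Agent.P216R.Flow

/-!
# P216EI: the case of equality in the lower bound for the scalar curvature
-/

open scoped Manifold ContDiff Topology ENNReal
open Set Filter

noncomputable section

namespace Vale.Agent.P216EI

open Vale.Agent.P216R Vale.Agent.P216BF Vale.Agent.P216C

/-- the evolution of the scalar curvature on a compact interval of times -/
def SCEV : Prop :=
  ∀ (M : Type) [TopologicalSpace M] [ChartedSpace E3 M] [IsManifold 𝓘(ℝ, E3) ∞ M]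
    (g : ℝ → Ten E3 M) (U : Set M) (a b : ℝ), a < b → RF g (Icc a b) U → ∀ t ∈ Icc a b, ∀ x ∈ U,
    ∀ e : Fin 3 → E3, ONB (g t x) e → HasDerivWithinAt (fun s => Sc (g s) x)
      (lap (g t) (Sc (g t)) x + 2 * ∑ i, ∑ j, Ric (g t) x (e i) (e j) ^ 2) (Icc a b) t

variable {M : Type} [TopologicalSpace M] [ChartedSpace E3 M] [IsManifold 𝓘(ℝ, E3) ∞ M]
  {g : Ten E3 M} {U : Set M} {x : M}

theorem lap_const (g : Ten E3 M) (c : ℝ) (x : M) : lap g (fun _ => c) x = 0 := by
  have h : rd E3 (fun _ : M => c) x = fun _ => c := rfl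
  rw [lap_eq, hess, h, P210.R2.H53.hessG, trB]
  simp

/-- a three dimensional metric with `|Ric|² ≤ R²/3` at a point has constant curvature there -/
theorem const_of_sq (hg : Met g U) (hx : x ∈ U)
    (h : ∀ e : Fin 3 → E3, ONB (g x) e → ∑ i, ∑ j, Ric g x (e i) (e j) ^ 2 ≤ Sc g x ^ 2 / 3) :
    SecGe g x (Sc g x / 6) ∧ SecLe g x (Sc g x / 6) := by
  have k : ∀ v w, g x v v = 1 → g x w w = 1 → g x v w = 0 → secN g x v w = Sc g x / 6 := by
    intro v w hv hw hvw
    obtain ⟨e, he, rfl, rfl⟩ := (met_pd hg hx).onb_pair (ι := Fin 3) (by simp) hv hw hvw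
      (i := 0) (j := 1) (by decide)
    have h1 := h e he
    have h2 := sc_eq hg hx he
    have h3 := ric_self hg hx he (e 2)
    have h4 := (sc_frame3 hg hx he).1
    simp only [Fin.sum_univ_three, secN_self hg hx] at h1 h2 h3
    have h5 : (Ric g x (e 2) (e 2) - Sc g x / 3) ^ 2 ≤ 0 := by
      rw [h2] at h1 ⊢
      nlinarith [sq_nonneg (Ric g x (e 0) (e 0) - Ric g x (e 1) (e 1)),
        sq_nonneg (Ric g x (e 0) (e 1)), sq_nonneg (Ric g x (e 0) (e 2)),
        sq_nonneg (Ric g x (e 1) (e 0)), sq_nonneg (Ric g x (e 1) (e 2)),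
        sq_nonneg (Ric g x (e 2) (e 0)), sq_nonneg (Ric g x (e 2) (e 1))]
    have h6 := pow_eq_zero_iff two_ne_zero |>.1 (le_antisymm h5 (sq_nonneg _))
    linarith
  exact ⟨secGe_of_pair hg hx fun v w a b c => (k v w a b c).ge,
    secLe_of_pair hg hx fun v w a b c => (k v w a b c).le⟩

theorem ein_of (H : SCEV) : EIN := by
  intro M _ _ _ g U s t c hst hc hg h x hx
  have ht : t ∈ Icc s t := right_mem_Icc.2 hst.le
  have h0 : t + c ≠ 0 := by linarith
  have h1 : -(1 / (4 * (t + c))) = Sc (g t) x / 6 := by rw [h t ht x hx]; field_simp; norm_num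
  rw [h1]
  refine const_of_sq (hg.met ht) hx fun e he => ?_
  have h2 := H M g U s t hst hg t ht x hx e he
  have h3 : lap (g t) (Sc (g t)) x = 0 := by
    rw [← lap_const (g t) (-(3 / (2 * (t + c)))) x]
    exact lap_congr EventuallyEq.rfl (eventually_of_mem (hg.isOpen.mem_nhds hx) (h t ht))
  have h4 : HasDerivAt (fun u : ℝ => -(3 / (2 * (u + c)))) (3 / (2 * (t + c) ^ 2)) t := by
    have := ((((hasDerivAt_id t).add_const c).const_mul 2).inv (by simpa using h0)).const_mul (-3)
    refine (this.congr_deriv ?_).congr_of_eventuallyEq (.of_forall fun u => ?_)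
    · simp only [id]; field_simp
    · simp [div_eq_mul_inv]
  have h5 := (uniqueDiffOn_Icc hst t ht).eq_deriv _ h2
    (h4.hasDerivWithinAt.congr (fun u hu => h u hu x hx) (h t ht x hx))
  have h6 : Sc (g t) x ^ 2 / 3 = 3 / (2 * (t + c) ^ 2) / 2 := by rw [h t ht x hx]; field_simp
  linarith

end Vale.Agent.P216EI
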