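import Vale.Agent.P216EI.Ein
import Vale.Agent.P216D.ModRG
import Vale.Agent.P216D.Heat

/-!
# P216EI: the evolution of the scalar curvature on manifolds
-/

open scoped Manifold ContDiff Topology ENNReal
open Set Filter

noncomputable section

namespace Vale.Agent.P216EI

open Vale.Agent.P216R Vale.Agent.P216BF Vale.Agent.P216C
open Vale.Agent.P216D (Iv Loc ON loc iv_Icc)
open Vale.Agent.P210.R2.H53 (lapG)

theorem on_iff {B : Bil E3} {e : Fin 3 → E3} : ON B e ↔ ONB B e :=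
  ⟨fun h => ⟨by simp, fun i j => (h i j).trans (by simp [P216D.dl])⟩,
    fun h i j => (h.on i j).trans (by simp [P216D.dl])⟩

theorem sc_loc {L : Loc} (h : RF L.g L.I L.U) (p : L.O) :
    HasDerivWithinAt (fun s => scG (L.g s) (Loc.x p)) (lapG (L.g (Loc.t p)) (scG (L.g (Loc.t p)))
      (Loc.x p) + 2 * ∑ i, ∑ j, ricG (L.g (Loc.t p)) (Loc.x p) (Loc.e p i) (Loc.e p j) ^ 2)
      L.I (Loc.t p) := by
  refine (Loc.has_Dt_sc Loc.sm_scG p).congr_deriv ?_
  have h1 := Loc.ev_Lap_sc p Loc.sm_scG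
  have h2 : L.fl.Dt L.fr.S = L.fr.Lap L.fr.S + L.fr.rsq := (Loc.rf h).Dt_S
  rw [← Loc.S_sc, two_mul, L.fr.Lap_add, map_add] at h1
  rw [← Loc.S_sc, two_mul, map_add, h2, ← h1]
  simp only [map_add, P216D.Fr.rsq, map_sum, map_pow, Loc.ev_Ric]
  ring

variable {M : Type} [TopologicalSpace M] [ChartedSpace E3 M] [IsManifold 𝓘(ℝ, E3) ∞ M]
  {g : ℝ → Ten E3 M} {I : Set ℝ} {U : Set M} {t : ℝ} {x : M}

/-- `∂ₜ R = Δ R + 2 |Ric|²`, also at boundary times -/
theorem sc_evol (hI : Iv I) (h : RF g I U) (ht : t ∈ I) (hx : x ∈ U) {e : Fin 3 → E3}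
    (he : ONB (g t x) e) : HasDerivWithinAt (fun s => Sc (g s) x)
      (lap (g t) (Sc (g t)) x + 2 * ∑ i, ∑ j, Ric (g t) x (e i) (e j) ^ 2) I t := by
  have h1 := sc_loc (L := loc (h.co x).toFam hI) (h.co x)
    (Loc.mkF ht (pt_mem_dom hx) (f := e) (on_iff.2 (by simpa only [co_pt] using he)))
  refine h1.congr_deriv ?_
  congr 1
  exact lapG_congr EventuallyEq.rfl (eventually_of_mem
    ((isOpen_dom x h.isOpen).mem_nhds (pt_mem_dom hx)) fun _ hu => ((h.met ht).rd_Sc hu).symm)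

theorem scev : SCEV := fun _ _ _ _ _ _ _ _ hab h _ ht _ hx _ he => sc_evol (iv_Icc hab) h ht hx he

theorem ein : EIN := ein_of scev

end Vale.Agent.P216EI
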